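import Mathlib

/-! P039: a connected cubic graph whose vertices split into quadrilaterals is Hamiltonian. -/

namespace Vale.Agent.P039

open SimpleGraph

variable {V : Type} [Fintype V]

theorem eq_second_of_edge_mem {G : SimpleGraph V} {a u w y : V} {l : List V} :
    ∀ p : G.Walk u w, p.IsPath → p.support = u :: y :: l → s(a, u) ∈ p.edges → a = y
  | .nil, _, hs, _ => by simp at hs
  | .cons (v := x) hx p', hp, hs, hm => by
    obtain ⟨-, hnot⟩ := (Walk.cons_isPath_iff _ _).1 hp
    have hx2 : x = y := by
      rw [Walk.support_cons] at hs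
      have h3 := (List.cons.inj hs).2
      rw [← p'.cons_tail_support] at h3
      exact (List.cons.inj h3).1
    rw [Walk.edges_cons, List.mem_cons] at hm
    rcases hm with h | h
    · rcases Sym2.eq_iff.1 h with ⟨h5, h6⟩ | ⟨h5, -⟩
      · exact absurd h6.symm hx.ne'
      · exact h5.trans hx2
    · exact absurd (p'.snd_mem_support_of_mem_edges h) hnot

/-- A periodic injective sequence of neighbours through every vertex gives a Hamiltonian cycle. -/
theorem hamiltonian_of_seq [DecidableEq V] (G : SimpleGraph V) (q : ℕ → V) (N : ℕ) (hN : 3 ≤ N)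
    (hadj : ∀ i, i < N → G.Adj (q i) (q (i + 1))) (hclose : q N = q 0)
    (hinj : ∀ i j, i < N → j < N → q i = q j → i = j) (hsurj : ∀ v, ∃ i, i < N ∧ q i = v) :
    G.IsHamiltonian := by
  intro _
  have hwalk : ∀ k, 1 ≤ k → k ≤ N →
      ∃ p : G.Walk (q 1) (q k), p.support = (List.range' 1 k).map q := by
    intro k
    induction k with
    | zero => omega
    | succ k ih =>
      intro _ hk
      rcases Nat.eq_zero_or_pos k with rfl | hpos
      · exact ⟨Walk.nil, by simp⟩
      · obtain ⟨p, hp⟩ := ih hpos (by omega)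
        refine ⟨p.concat (hadj k (by omega)), ?_⟩
        rw [Walk.support_concat, hp, List.range'_1_concat, List.map_append]
        simp [Nat.add_comm 1 k]
  obtain ⟨p0, hp0⟩ := hwalk N (by omega) le_rfl
  have hinj' : ∀ i ∈ List.range' 1 N, ∀ j ∈ List.range' 1 N, q i = q j → i = j := by
    intro i hi j hj h
    rw [List.mem_range'_1] at hi hj
    rcases eq_or_ne i N with rfl | hiN <;> rcases eq_or_ne j i with rfl | hji
    · rfl
    · have := hinj 0 j (by omega) (by omega) (hclose ▸ h); omega
    · rfl
    · rcases eq_or_ne j N with rfl | hjN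
      · have := hinj i 0 (by omega) (by omega) (h.trans hclose); omega
      · exact hinj i j (by omega) (by omega) h
  set p : G.Walk (q 1) (q 0) := p0.copy rfl hclose with hp
  have hps : p.support = (List.range' 1 N).map q := by rw [hp, Walk.support_copy, hp0]
  have hpath : p.IsPath := by
    rw [Walk.isPath_def, hps]
    exact List.Nodup.map_on hinj' List.nodup_range'
  have hmem : ∀ v, v ∈ p.support := by
    intro v
    obtain ⟨i, hi, rfl⟩ := hsurj v
    rw [hps, List.mem_map]
    rcases Nat.eq_zero_or_pos i with rfl | hpos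
    · exact ⟨N, List.mem_range'_1.2 ⟨by omega, by omega⟩, hclose⟩
    · exact ⟨i, List.mem_range'_1.2 ⟨by omega, by omega⟩, rfl⟩
  refine ⟨q 0, Walk.cons (hadj 0 (by omega)) p, ?_⟩
  rw [Walk.isHamiltonianCycle_iff_isCycle_and_support_count_tail_eq_one]
  refine ⟨(Walk.cons_isCycle_iff _ _).2 ⟨hpath, fun hmem' => ?_⟩, fun v => ?_⟩
  · have h2 : q 2 ≠ q 0 := fun h => by
      have := hinj 2 0 (by omega) (by omega) h; omega
    refine h2 (eq_second_of_edge_mem (y := q 2) (l := (List.range' 3 (N - 2)).map q) p hpath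
      ?_ hmem').symm
    rw [hps, show N = (N - 2) + 1 + 1 by omega, List.range'_succ, List.range'_succ]
    simp
  · simpa using List.count_eq_one_of_mem hpath.support_nodup (hmem v)

/-- Vertices joined by the two involutions. -/
def Conn (π μ : V → V) (v w : V) : Prop :=
  Relation.ReflTransGen (fun x y => y = π x ∨ y = μ x) v w

theorem iterate_pi {π μ : V → V} (hπ : ∀ v, π (π v) = v) (hμ : ∀ v, μ (μ v) = v) :
    ∀ (i : ℕ) (v : V), (μ ∘ π)^[i] (π ((μ ∘ π)^[i] v)) = π v
  | 0, v => rfl
  | i + 1, v => by
    rw [Function.iterate_succ_apply, Function.iterate_succ_apply']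
    simp only [Function.comp, hπ, hμ]
    exact iterate_pi hπ hμ i v

theorem conn_eq_orbit {π μ : V → V} (hπ : ∀ v, π (π v) = v) (hμ : ∀ v, μ (μ v) = v) (a : V)
    {w : V} (h : Conn π μ a w) :
    ∃ i < Function.minimalPeriod (μ ∘ π) a, w = (μ ∘ π)^[i] a ∨ w = π ((μ ∘ π)^[i] a) := by
  have hbij : Function.Injective (μ ∘ π) := fun x y hxy => by
    have := congrArg π (congrArg μ hxy)
    simpa [hπ, hμ] using this
  have hm : 0 < Function.minimalPeriod (μ ∘ π) a :=
    Function.minimalPeriod_pos_of_mem_periodicPts (hbij.mem_periodicPts a)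
  set m := Function.minimalPeriod (μ ∘ π) a with hmdef
  have hper : (μ ∘ π)^[m] a = a := Function.iterate_minimalPeriod
  induction h with
  | refl => exact ⟨0, hm, Or.inl rfl⟩
  | @tail x y _ hxy ih =>
    obtain ⟨i, hi, hx⟩ := ih
    rcases hxy with rfl | rfl <;> rcases hx with rfl | rfl
    · exact ⟨i, hi, Or.inr rfl⟩
    · exact ⟨i, hi, Or.inl (hπ _)⟩
    · rcases Nat.eq_zero_or_pos i with rfl | hpos
      · refine ⟨m - 1, by omega, Or.inr ?_⟩
        rw [Function.iterate_zero_apply]
        conv_lhs => rw [← hper, show m = m - 1 + 1 by omega, Function.iterate_succ_apply',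
          Function.comp_apply, hμ]
      · refine ⟨i - 1, by omega, Or.inr ?_⟩
        conv_lhs => rw [show i = i - 1 + 1 by omega, Function.iterate_succ_apply',
          Function.comp_apply, hμ]
    · rcases Nat.lt_or_ge (i + 1) m with hlt | hge
      · exact ⟨i + 1, hlt, Or.inl (by rw [Function.iterate_succ_apply']; rfl)⟩
      · refine ⟨0, hm, Or.inl ?_⟩
        rw [Function.iterate_zero_apply]
        conv_rhs => rw [← hper, show m = i + 1 by omega, Function.iterate_succ_apply',
          Function.comp_apply]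

theorem orbit_ne {π μ : V → V} (hπ : ∀ v, π (π v) = v) (hμ : ∀ v, μ (μ v) = v)
    (hπne : ∀ v, π v ≠ v) (hμne : ∀ v, μ v ≠ v) (a : V) :
    ∀ k, π a ≠ (μ ∘ π)^[k] a := by
  intro k hk
  obtain ⟨l, hl⟩ : ∃ l, k = l + l ∨ k = l + l + 1 := ⟨k / 2, by omega⟩
  have key := iterate_pi hπ hμ l a
  rw [hk] at key
  have hinj : Function.Injective ((μ ∘ π)^[l]) := Function.Injective.iterate (fun x y hxy => by
    have := congrArg π (congrArg μ hxy)
    simpa [hπ, hμ] using this) l
  rcases hl with rfl | rfl
  · rw [Function.iterate_add_apply] at key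
    exact hπne _ (hinj key)
  · rw [Nat.add_assoc, Function.iterate_add_apply, Function.iterate_succ_apply',
      Function.comp_apply] at key
    exact hμne _ (hinj key).symm

open Classical in
theorem hamiltonian_of_squares (G : SimpleGraph V) (hconn : G.Connected)
    (hcubic : ∀ v, G.degree v = 3) (σ : V → V) (h4 : ∀ v, σ (σ (σ (σ v))) = v)
    (h2 : ∀ v, σ (σ v) ≠ v) (hsq : ∀ v, G.Adj v (σ v)) : G.IsHamiltonian := by
  have hσinj : Function.Injective σ := fun x y h => by rw [← h4 x, h, h4]
  have h1 : ∀ v, σ v ≠ v := fun v => (hsq v).ne.symm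
  have h3 : ∀ v, σ (σ (σ v)) ≠ σ v := fun v => h2 (σ v)
  have h3' : ∀ v, σ (σ (σ v)) ≠ v := fun v h => h1 v (by conv_rhs => rw [← h4 v, h])
  have hsq' : ∀ v, G.Adj v (σ (σ (σ v))) := fun v => by
    simpa [h4] using (hsq (σ (σ (σ v)))).symm
  have hex : ∀ v, ∃ u, ((G.neighborFinset v).erase (σ v)).erase (σ (σ (σ v))) = {u} := fun v => by
    rw [← Finset.card_eq_one]
    rw [Finset.card_erase_of_mem (Finset.mem_erase.2
      ⟨h3 v, (G.mem_neighborFinset _ _).2 (hsq' v)⟩),
      Finset.card_erase_of_mem ((G.mem_neighborFinset _ _).2 (hsq v)),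
      card_neighborFinset_eq_degree, hcubic]
  choose μ hμ using hex
  have hmem : ∀ v w, w = μ v ↔ w ≠ σ (σ (σ v)) ∧ w ≠ σ v ∧ G.Adj v w := fun v w => by
    rw [← Finset.mem_singleton, ← hμ v, Finset.mem_erase, Finset.mem_erase, mem_neighborFinset]
  have hμa : ∀ v, G.Adj v (μ v) := fun v => ((hmem v (μ v)).1 rfl).2.2
  have hμ2 : ∀ v, μ (μ v) = v := fun v => by
    obtain ⟨e1, e2, e3⟩ := (hmem v (μ v)).1 rfl
    refine ((hmem (μ v) v).2 ⟨fun h => e2 ?_, fun h => e1 ?_, e3.symm⟩).symm
    · conv_rhs => rw [h, h4]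
    · conv_rhs => rw [h, h4]
  have hnb : ∀ v w, G.Adj v w → w = σ v ∨ w = σ (σ (σ v)) ∨ w = μ v := fun v w h => by
    by_cases e1 : w = σ v
    · exact Or.inl e1
    by_cases e2 : w = σ (σ (σ v))
    · exact Or.inr (Or.inl e2)
    exact Or.inr (Or.inr ((hmem v w).2 ⟨e2, e1, h⟩))
  -- pairings
  set P : (V → V) → Prop := fun π => ∀ v, π (π v) = v ∧ (π v = σ v ∨ π v = σ (σ (σ v))) with hP
  have hπa : ∀ π, P π → ∀ v, G.Adj v (π v) := fun π hπ v => by
    rcases (hπ v).2 with h | h <;> rw [h]
    · exact hsq v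
    · exact hsq' v
  obtain ⟨π₀, hπ₀⟩ : ∃ π, P π := by
    let e := Fintype.equivFin V
    let m : V → Fin (Fintype.card V) := fun v =>
      min (min (e v) (e (σ v))) (min (e (σ (σ v))) (e (σ (σ (σ v)))))
    have hm : ∀ v, m (σ v) = m v := fun v => by
      simp only [m, h4, min_assoc, min_comm, min_left_comm]
    refine ⟨fun v => if e v = m v ∨ e (σ (σ v)) = m v then σ v else σ (σ (σ v)), fun v => ?_⟩
    have hsplit : (e v = m v ∨ e (σ (σ v)) = m v) ↔
        ¬ (e (σ v) = m v ∨ e (σ (σ (σ v))) = m v) := by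
      constructor
      · rintro (h | h) (h' | h') <;> have := e.injective (h.trans h'.symm)
        · exact h1 v this.symm
        · exact h3' v this.symm
        · exact h1 _ this
        · exact h1 _ this.symm
      · intro h
        simp only [m] at h ⊢
        rcases min_choice (min (e v) (e (σ v))) (min (e (σ (σ v))) (e (σ (σ (σ v))))) with hh | hh
        · rcases min_choice (e v) (e (σ v)) with hk | hk <;> rw [hh, hk] at h ⊢ <;> simp_all
        · rcases min_choice (e (σ (σ v))) (e (σ (σ (σ v)))) with hk | hk <;>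
            rw [hh, hk] at h ⊢ <;> simp_all
    beta_reduce
    by_cases hc : e v = m v ∨ e (σ (σ v)) = m v
    · refine ⟨?_, Or.inl (if_pos hc)⟩
      rw [if_pos hc, hm, if_neg (hsplit.1 hc), h4]
    · refine ⟨?_, Or.inr (if_neg hc)⟩
      rw [if_neg hc]
      have hc' := Classical.not_not.1 (mt hsplit.2 hc)
      simp only [hm, h4]
      rw [if_pos hc'.symm]
  have v₀ : V := hconn.nonempty.some
  let C : (V → V) → Finset V := fun π => Finset.univ.filter fun w => Conn π μ v₀ w
  obtain ⟨π, hπmem, hmax⟩ := (Finset.univ.filter P).exists_max_image (fun π => (C π).card)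
    ⟨π₀, Finset.mem_filter.2 ⟨Finset.mem_univ _, hπ₀⟩⟩
  have hπ : P π := (Finset.mem_filter.1 hπmem).2
  have hfull : ∀ w, Conn π μ v₀ w := by
    by_contra hcon
    obtain ⟨w₁, hw₁⟩ := not_forall.1 hcon
    obtain ⟨walk⟩ := hconn.preconnected v₀ w₁
    obtain ⟨d, -, hd1, hd2⟩ :=
      walk.exists_boundary_dart {w | Conn π μ v₀ w} Relation.ReflTransGen.refl hw₁
    set a := d.fst
    set c := d.snd
    have ha : Conn π μ v₀ a := hd1
    have hc : ¬ Conn π μ v₀ c := hd2
    have hcμ : c ≠ μ a := fun h => hc (h ▸ ha.tail (Or.inr rfl))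
    have hcπ : c ≠ π a := fun h => hc (h ▸ ha.tail (Or.inl rfl))
    have hcn : c = σ a ∨ c = σ (σ (σ a)) := by
      rcases hnb a c d.adj with h | h | h
      · exact Or.inl h
      · exact Or.inr h
      · exact absurd h hcμ
    have hcπc : π c ≠ a := fun h => hcπ (by rw [← h, (hπ c).1])
    set π' : V → V := fun v => if v = a ∨ v = π a ∨ v = c ∨ v = π c then
      (if π v = σ v then σ (σ (σ v)) else σ v) else π v with hπ'
    have hflip : ∀ v, (if π v = σ v then σ (σ (σ v)) else σ v) ≠ π v ∧
        ((if π v = σ v then σ (σ (σ v)) else σ v) = σ v ∨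
          (if π v = σ v then σ (σ (σ v)) else σ v) = σ (σ (σ v))) := fun v => by
      rcases (hπ v).2 with h | h
      · rw [if_pos h]; exact ⟨by rw [h]; exact h3 v, Or.inr rfl⟩
      · rw [if_neg (by rw [h]; exact h3 v)]; exact ⟨by rw [h]; exact (h3 v).symm, Or.inl rfl⟩
    have hsquare : (π a = σ a ∧ c = σ (σ (σ a)) ∧ π c = σ (σ a)) ∨
        (π a = σ (σ (σ a)) ∧ c = σ a ∧ π c = σ (σ a)) := by
      rcases (hπ a).2 with h | h
      · have e : c = σ (σ (σ a)) := hcn.resolve_left fun e => hcπ (e.trans h.symm)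
        refine Or.inl ⟨h, e, ?_⟩
        rcases (hπ c).2 with k | k
        · exact absurd (k.trans (by rw [e, h4])) hcπc
        · rw [k, e, h4]
      · have e : c = σ a := hcn.resolve_right fun e => hcπ (e.trans h.symm)
        refine Or.inr ⟨h, e, ?_⟩
        rcases (hπ c).2 with k | k
        · rw [k, e]
        · exact absurd (k.trans (by rw [e, h4])) hcπc
    have hπ'P : P π' := by
      have hout : ∀ v, ¬ (v = a ∨ v = π a ∨ v = c ∨ v = π c) →
          ¬ (π v = a ∨ π v = π a ∨ π v = c ∨ π v = π c) := fun v hv h => hv (by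
        rcases h with h | h | h | h <;> have h' := congrArg π h <;> simp only [(hπ _).1] at h' <;>
          tauto)
      intro v
      by_cases hv : v = a ∨ v = π a ∨ v = c ∨ v = π c
      · refine ⟨?_, ?_⟩
        · simp only [hπ', if_pos hv]
          rcases hsquare with ⟨ea, ec, ed⟩ | ⟨ea, ec, ed⟩
          · have e1 : π (σ a) = a := (congrArg π ea).symm.trans (hπ a).1
            have e2 : π (σ (σ a)) = σ (σ (σ a)) :=
              ((congrArg π ed).symm.trans (hπ c).1).trans ec
            have e3 : π (σ (σ (σ a))) = σ (σ a) := (congrArg π ec).symm.trans ed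
            rw [ea, ed, ec] at hv ⊢
            rcases hv with rfl | rfl | rfl | rfl <;>
              simp [ea, e1, e2, e3, h4, h1, h2, h3, h3', Ne.symm (h1 _), Ne.symm (h2 _),
                Ne.symm (h3 _), Ne.symm (h3' _)]
          · have e3 : π (σ (σ (σ a))) = a := (congrArg π ea).symm.trans (hπ a).1
            have e2 : π (σ (σ a)) = σ a := ((congrArg π ed).symm.trans (hπ c).1).trans ec
            have e1 : π (σ a) = σ (σ a) := (congrArg π ec).symm.trans ed
            rw [ea, ed, ec] at hv ⊢
            rcases hv with rfl | rfl | rfl | rfl <;>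
              simp [ea, e1, e2, e3, h4, h1, h2, h3, h3', Ne.symm (h1 _), Ne.symm (h2 _),
                Ne.symm (h3 _), Ne.symm (h3' _)]
        · simp only [hπ', if_pos hv]; exact (hflip v).2
      · simp only [hπ', if_neg hv, if_neg (hout v hv)]
        exact hπ v
    have hsame : ∀ v, v ≠ a → v ≠ π a → Conn π μ v₀ v → π' v = π v := fun v h e hv => by
      have h5 : ¬ (v = a ∨ v = π a ∨ v = c ∨ v = π c) := by
        rintro (k | k | k | k)
        · exact h k
        · exact e k
        · exact hc (k ▸ hv)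
        · exact hc ((hπ c).1 ▸ (k ▸ hv).tail (Or.inl rfl))
      simp only [hπ', if_neg h5]
    have hsymm : ∀ (ρ : V → V), (∀ v, ρ (ρ v) = v) → ∀ {x y : V}, Conn ρ μ x y → Conn ρ μ y x := by
      intro ρ hρ x y h
      induction h with
      | refl => exact Relation.ReflTransGen.refl
      | @tail y z _ hyz ih =>
        refine Relation.ReflTransGen.head ?_ ih
        rcases hyz with h | h
        · exact Or.inl (by rw [h, hρ])
        · exact Or.inr (by rw [h, hμ2])
    have hπ1 : ∀ v, π (π v) = v := fun v => (hπ v).1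
    set m := Function.minimalPeriod (μ ∘ π) a with hm
    have hin : ∀ i, Conn π μ v₀ ((μ ∘ π)^[i] a) := by
      intro i
      induction i with
      | zero => exact ha
      | succ i ih =>
        rw [Function.iterate_succ_apply']
        exact (ih.tail (Or.inl rfl)).tail (Or.inr rfl)
    have hpath : ∀ i, 0 < i → i ≤ m → Conn π' μ (π a) ((μ ∘ π)^[i] a) ∧
        (i < m → Conn π' μ (π a) (π ((μ ∘ π)^[i] a))) := by
      intro i
      induction i with
      | zero => omega
      | succ i ih =>
        intro _ hi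
        have first : Conn π' μ (π a) ((μ ∘ π)^[i + 1] a) := by
          rw [Function.iterate_succ_apply', Function.comp_apply]
          rcases Nat.eq_zero_or_pos i with rfl | hpos
          · exact Relation.ReflTransGen.single (Or.inr rfl)
          · exact ((ih hpos (by omega)).2 (by omega)).tail (Or.inr rfl)
        refine ⟨first, fun hlt => first.tail (Or.inl ?_)⟩
        refine (hsame _ (fun h => ?_) (fun h => ?_) (hin _)).symm
        · have h6 : Function.IsPeriodicPt (μ ∘ π) (i + 1) a := h
          have h7 := h6.minimalPeriod_le (Nat.succ_pos i)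
          omega
        · exact orbit_ne hπ1 hμ2 (fun v => (hπa π hπ v).ne.symm) (fun v => (hμa v).ne.symm) a
            (i + 1) h.symm
    have hinj : Function.Injective (μ ∘ π) := fun x y hxy => by
      have := congrArg π (congrArg μ hxy)
      simpa [hπ1, hμ2] using this
    have hmpos : 0 < m :=
      Function.minimalPeriod_pos_of_mem_periodicPts (hinj.mem_periodicPts a)
    have hab : Conn π' μ (π a) a := by
      have := (hpath m hmpos le_rfl).1
      rwa [hm, Function.iterate_minimalPeriod] at this
    have hbig : ∀ w, Conn π μ a w → Conn π' μ a w := by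
      intro w hw
      obtain ⟨i, hi, hwi⟩ := conn_eq_orbit hπ1 hμ2 a hw
      have hba := hsymm π' (fun v => (hπ'P v).1) hab
      rcases Nat.eq_zero_or_pos i with rfl | hpos
      · rcases hwi with rfl | rfl
        · exact Relation.ReflTransGen.refl
        · exact hba
      · rcases hwi with rfl | rfl
        · exact hba.trans (hpath i hpos hi.le).1
        · exact hba.trans ((hpath i hpos hi.le).2 hi)
    have hac : Conn π' μ a c := Relation.ReflTransGen.single (Or.inl (by
      simp only [hπ', true_or, if_true]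
      rcases hsquare with ⟨ea, ec, -⟩ | ⟨ea, ec, -⟩
      · rw [if_pos ea, ec]
      · rw [if_neg (by rw [ea]; exact h3 a), ec]))
    have hv₀a : Conn π' μ v₀ a :=
      hsymm π' (fun v => (hπ'P v).1) (hbig v₀ (hsymm π hπ1 ha))
    have hlt : (C π).card < (C π').card := by
      refine Finset.card_lt_card (Finset.ssubset_iff_of_subset (fun w hw => ?_) |>.2 ⟨c, ?_, ?_⟩)
      · simp only [C, Finset.mem_filter, Finset.mem_univ, true_and] at hw ⊢
        exact hv₀a.trans (hbig w ((hsymm π hπ1 ha).trans hw))
      · simp only [C, Finset.mem_filter, Finset.mem_univ, true_and]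
        exact hv₀a.trans hac
      · simp only [C, Finset.mem_filter, Finset.mem_univ, true_and]
        exact hc
    exact absurd (hmax π' (Finset.mem_filter.2 ⟨Finset.mem_univ _, hπ'P⟩)) (not_le.2 hlt)
  -- the cycle
  have hπ1 : ∀ v, π (π v) = v := fun v => (hπ v).1
  have hne := orbit_ne hπ1 hμ2 (fun v => (hπa π hπ v).ne.symm) (fun v => (hμa v).ne.symm)
  set f := μ ∘ π with hf
  set m := Function.minimalPeriod f v₀ with hm
  let q : ℕ → V := fun i => if i % 2 = 0 then f^[i / 2] v₀ else π (f^[i / 2] v₀)
  have hsurj : ∀ v, ∃ i, i < 2 * m ∧ q i = v := by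
    intro v
    obtain ⟨i, hi, rfl | rfl⟩ := conn_eq_orbit hπ1 hμ2 v₀ (hfull v)
    · exact ⟨2 * i, by rw [hm, hf]; omega, by simp [q, hf]⟩
    · refine ⟨2 * i + 1, by rw [hm, hf]; omega, ?_⟩
      simp [q, hf, Nat.mul_add_mod, show (2 * i + 1) / 2 = i by omega]
  have hN : 3 ≤ 2 * m := by
    have hthree : ({v₀, σ v₀, σ (σ v₀)} : Finset V).card = 3 := by
      rw [Finset.card_insert_of_notMem (by simp [Ne.symm (h1 v₀), Ne.symm (h2 v₀)]),
        Finset.card_pair (Ne.symm (h1 _))]
    have hle : Fintype.card V ≤ 2 * m := by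
      have : (Finset.univ : Finset V) ⊆ (Finset.range (2 * m)).image q := fun v _ => by
        obtain ⟨i, hi, h⟩ := hsurj v
        exact Finset.mem_image.2 ⟨i, Finset.mem_range.2 hi, h⟩
      have h' := (Finset.card_le_card this).trans Finset.card_image_le
      rwa [Finset.card_univ, Finset.card_range] at h'
    exact hthree ▸ (Finset.card_le_univ _).trans hle
  refine hamiltonian_of_seq G q (2 * m) hN (fun i _ => ?_) ?_ (fun i j hi hj h => ?_) hsurj
  · rcases Nat.mod_two_eq_zero_or_one i with h | h
    · simp only [q, h, if_true, show (i + 1) % 2 = 1 by omega, show (i + 1) / 2 = i / 2 by omega,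
        one_ne_zero, if_false]
      exact hπa π hπ _
    · simp only [q, h, one_ne_zero, if_false, show (i + 1) % 2 = 0 by omega, if_true,
        show (i + 1) / 2 = i / 2 + 1 by omega, Function.iterate_succ_apply']
      exact hμa _
  · simp [q, hm, Function.iterate_minimalPeriod]
  · have hper : ∀ k l, k < m → l < m → f^[k] v₀ = f^[l] v₀ → k = l := fun k l hk hl hkl =>
      (Function.iterate_eq_iterate_iff_of_lt_minimalPeriod hk hl).1 hkl
    have hmix : ∀ k l, k < m → l < m → π (f^[k] v₀) ≠ f^[l] v₀ := by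
      intro k l hk hl hkl
      apply hne (f^[k] v₀) (m - k + l)
      rw [hkl, ← Function.iterate_add_apply, show m - k + l + k = l + m by omega,
        Function.iterate_add_apply, hm, Function.iterate_minimalPeriod]
    rcases Nat.mod_two_eq_zero_or_one i with hi' | hi' <;>
      rcases Nat.mod_two_eq_zero_or_one j with hj' | hj' <;>
      simp only [q, hi', hj', if_true, one_ne_zero, if_false] at h
    · have := hper (i / 2) (j / 2) (by omega) (by omega) h; omega
    · exact absurd h.symm (hmix _ _ (by omega) (by omega))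
    · exact absurd h (hmix _ _ (by omega) (by omega))
    · have := hper (i / 2) (j / 2) (by omega) (by omega) (by rw [← hπ1 (f^[i / 2] v₀), h, hπ1]); omega

end Vale.Agent.P039
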